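import Vale.Agent.Lib.P007.Main

open Matrix MeasureTheory Filter Topology NumberField Vale.Agent.Lib.P007

theorem Vale.Agent.Results.P007.CompositeFails.result (n a b : ℕ) (ha : 2 ≤ a) (hb : 2 ≤ b)
    (hn : n = a * b) :
    ∃ (K : ℕ → Type) (_ : ∀ i, Field (K i)) (_ : ∀ i, NumberField (K i))
      (_ : ∀ i, NumberField.IsTotallyReal (K i)) (σ : ∀ i, Fin n ≃ (K i →+* ℝ)),
      (∀ i, Module.finrank ℚ (K i) = n) ∧
      Tendsto (fun i => |NumberField.discr (K i)|) atTop atTop ∧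
      (∀ i, IsOrderOf (maxOrder (K i))) ∧
      (∀ i, (packetSet (maxOrder (K i)) (σ i)).Nonempty) ∧
      ∃ f : XSpace n → ℝ, Continuous f ∧ HasCompactSupport f ∧ (∀ x, 0 ≤ f x) ∧ (∃ x, f x ≠ 0) ∧
        (∀ i, ∀ x ∈ packetSet (maxOrder (K i)) (σ i), f x = 0) ∧
        ∀ m : Measure (XSpace n), IsProbabilityMeasure m → (∀ h, m.map (XSpace.act h) = m) →
          0 < ∫ x, f x ∂m ∧
          ∀ μ : ℕ → Measure (XSpace n),
            (∀ i, μ i (packetSet (maxOrder (K i)) (σ i))ᶜ = 0) →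
            ¬ Tendsto (fun i => ∫ x, f x ∂(μ i)) atTop (𝓝 (∫ x, f x ∂m)) :=
  composite_failure n a b ha hb hn
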